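import Mathlib
import Vale.Agent.P037.Main

/-!
Ordered matrix removal for every binary pattern, with a double exponential bound.
-/

namespace Vale.Agent.Results.P037.DoubleExponentialRemoval

theorem result : Vale.Agent.P037.DoubleExpRemoval :=
  Vale.Agent.P037.doubleExpRemoval

end Vale.Agent.Results.P037.DoubleExponentialRemoval
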