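import Vale.Agent.P037.Disproof.Count
import Vale.Agent.P037.Disproof.Far
import Vale.Agent.P037.Disproof.Sound

/-!
A binary pattern without polynomial ordered matrix removal.
-/

open Vale.Agent.P037 Vale.Agent.P037.Disproof

namespace Vale.Agent.Results.P037.PolynomialRemovalFalse

theorem result :
    ∃ k : ℕ, 1 ≤ k ∧ ∃ H : Fin k → Fin k → Bool, ∀ c C : ℝ, 0 < c → 0 < C →
      ∃ ε : ℝ, 0 < ε ∧ ε < 1 ∧ ∀ n₀ : ℕ, ∃ n : ℕ, n₀ ≤ n ∧ ∃ A : Fin n → Fin n → Bool,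
        IsFarFromFree H A ε ∧ (numCopies H A : ℝ) < c * ε ^ C * (n : ℝ) ^ (2 * k) :=
  large_counterexamples soundSpec
    (fun _ _ _ P _ hM hm B hB => far_main P hM hm B hB)

end Vale.Agent.Results.P037.PolynomialRemovalFalse
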